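import Vale.Agent.P273.H149.SepF2
import Vale.Agent.P273.H768.T2lim

/-!
# P273, crew ASY0: the input (F2) of 768
-/

noncomputable section

namespace Vale.Agent.P273.H149

/-- **(F2)**, the literal input of 768 -/
theorem inF2 (κ : Fin 3 → Fin 3 → ℝ) : H768.T2.InF2 κ :=
  fun _ _ _ _ _ _ hG hy ξ _ _ _ h _ hd => lgL_eq hG hy h ξ hd

end Vale.Agent.P273.H149

end
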