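import Vale.Agent.P273.H562.AsyDefs

/-!
# P273, LIM, item (F2) of 778: two marks in the same component have the same limit legs

Component of a mark of a neck at limit depth s: inside the neck (0 < s < y), on the core P
(s = 0) or on the core P' (s = y).  Marks of one component have equal limits legN, legC.
-/

set_option linter.unusedSectionVars false
set_option linter.unusedSimpArgs false

noncomputable section

namespace Vale.Agent.P273.H149

open Set Filter H681 H95 H732 H562
open scoped Topology ContDiff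

section

variable {κ : Fin 3 → Fin 3 → ℝ} {R : H95.Region} {m : ∀ k, Fin (R.n k + 1)}

/-- the gaps whose limit size is positive -/
def Big (R : H95.Region) (m : ∀ k, Fin (R.n k + 1)) (B : Set (W R m).Fr)
    (g : Σ k, Fin (R.n k + 1)) : Prop :=
  ∀ h : g ≠ (W R m).last ((W R m).nk g), (⟨g, h⟩ : (W R m).Fr) ∈ B

theorem big_last {B : Set (W R m).Fr} (k : Fin 3) : Big R m B ((W R m).last k) := by
  intro h
  exact absurd (by rw [(W R m).nk_last]) h

theorem big_free {B : Set (W R m).Fr} {f : (W R m).Fr} (h : f ∈ B) : Big R m B f.1 := by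
  intro _
  exact h

open Classical in
theorem szl_free {B : Set (W R m).Fr} {p : Co R m} (f : (W R m).Fr) :
    szl R m B p f.1 = if f ∈ B then p.1 f else 0 := by
  unfold szl
  rw [dif_pos f.2]

open Classical in
theorem szl_last {B : Set (W R m).Fr} {p : Co R m} (k : Fin 3) :
    szl R m B p ((W R m).last k) = p.2.2.1 k -
        ∑ f : (W R m).Fr, if (W R m).nk f.1 = k ∧ f ∈ B then p.1 f else 0 := by
  have h : ¬ ((W R m).last k ≠ (W R m).last ((W R m).nk ((W R m).last k))) := by
    rw [(W R m).nk_last]; simp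
  unfold szl
  rw [dif_neg h, (W R m).nk_last]

open Classical in
theorem szl_last_pos {B : Set (W R m).Fr} {p : Co R m} (hP : (W R m).Pos B p) (k : Fin 3) :
    0 < szl R m B p ((W R m).last k) := by
  rw [szl_last]
  have h := hP.2 k
  have e : (∑ f : (W R m).Fr, if (W R m).nk f.1 = k ∧ f ∈ B then p.1 f else 0)
      = ∑ f : (W R m).Fr, if f ∈ B ∧ (W R m).nk f.1 = k then p.1 f else 0 := by
    refine Finset.sum_congr rfl fun f _ => ?_
    exact if_congr and_comm rfl rfl
  rw [e]
  linarith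

theorem szl_pos {B : Set (W R m).Fr} {p : Co R m} (hP : (W R m).Pos B p)
    {g : Σ k, Fin (R.n k + 1)} (hg : Big R m B g) : 0 < szl R m B p g := by
  by_cases h : g ≠ (W R m).last ((W R m).nk g)
  · have h1 := szl_free (R := R) (m := m) (B := B) (p := p) ⟨g, h⟩
    rw [if_pos (hg h)] at h1
    have h2 := hP.1 ⟨g, h⟩ (hg h)
    exact lt_of_lt_of_eq h2 h1.symm
  · rw [not_not] at h
    rw [h]
    exact szl_last_pos hP _

theorem szl_zero {B : Set (W R m).Fr} {p : Co R m}
    {g : Σ k, Fin (R.n k + 1)} (hg : ¬ Big R m B g) : szl R m B p g = 0 := by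
  unfold Big at hg
  push Not at hg
  obtain ⟨h, hB⟩ := hg
  have h1 := szl_free (R := R) (m := m) (B := B) (p := p) ⟨g, h⟩
  rw [if_neg hB] at h1
  exact h1

theorem szl_nonneg {B : Set (W R m).Fr} {p : Co R m} (hP : (W R m).Pos B p)
    (g : Σ k, Fin (R.n k + 1)) : 0 ≤ szl R m B p g := by
  by_cases hg : Big R m B g
  · exact (szl_pos hP hg).le
  · exact (szl_zero hg).ge

/-- the limit sizes of the gaps of a neck have sum y -/
theorem sum_neck {B : Set (W R m).Fr} {p : Co R m} (k : Fin 3) :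
    ∑ g ∈ (W R m).neck k, szl R m B p g = p.2.2.1 k := by
  classical
  have h1 : (W R m).neck k = insert ((W R m).last k) (((W R m).neck k).erase ((W R m).last k)) := by
    rw [Finset.insert_erase ((W R m).last_mem k)]
  rw [h1, Finset.sum_insert (Finset.notMem_erase _ _), szl_last]
  have h2 : ∑ g ∈ ((W R m).neck k).erase ((W R m).last k), szl R m B p g =
      ∑ f : (W R m).Fr, if (W R m).nk f.1 = k ∧ f ∈ B then p.1 f else 0 := by
    symm
    have h3 : ∀ f : (W R m).Fr, (if (W R m).nk f.1 = k ∧ f ∈ B then p.1 f else 0) =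
        if (W R m).nk f.1 = k then szl R m B p f.1 else 0 := by
      intro f
      rw [szl_free]
      by_cases h4 : (W R m).nk f.1 = k
      · by_cases h5 : f ∈ B
        · simp [h4, h5]
        · simp [h4, h5]
      · simp [h4]
    rw [Finset.sum_congr rfl fun f _ => h3 f, ← Finset.sum_filter]
    refine Finset.sum_bij (fun (f : (W R m).Fr) _ => f.1) ?_ ?_ ?_ ?_
    · intro f hf
      have hf' : (W R m).nk f.1 = k := (Finset.mem_filter.1 hf).2
      refine Finset.mem_erase.2 ⟨?_, (W R m).mem_neck.2 hf'⟩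
      intro h
      apply f.2
      rw [hf', h]
    · intro f _ f' _ h
      exact Subtype.ext h
    · intro g hg
      obtain ⟨h5, h6⟩ := Finset.mem_erase.1 hg
      have h7 : (W R m).nk g = k := (W R m).mem_neck.1 h6
      refine ⟨⟨g, by rw [h7]; exact h5⟩, ?_, rfl⟩
      exact Finset.mem_filter.2 ⟨Finset.mem_univ _, h7⟩
    · intro f _
      rfl
  rw [h2]
  ring

/-- nested sets of gaps with the same limit size contain the same large gaps -/
theorem big_iff_of_sum {B : Set (W R m).Fr} {p : Co R m} (hP : (W R m).Pos B p)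
    {S T : Finset (Σ k, Fin (R.n k + 1))} (hST : S ⊆ T)
    (h : ∑ g ∈ S, szl R m B p g = ∑ g ∈ T, szl R m B p g)
    {g : Σ k, Fin (R.n k + 1)} (hg : Big R m B g) : g ∈ S ↔ g ∈ T := by
  classical
  refine ⟨fun h1 => hST h1, fun h1 => ?_⟩
  by_contra h2
  have h3 : ∑ g ∈ insert g S, szl R m B p g ≤ ∑ g ∈ T, szl R m B p g :=
    Finset.sum_le_sum_of_subset_of_nonneg
      (Finset.insert_subset h1 hST) fun g _ _ => szl_nonneg hP g
  rw [Finset.sum_insert h2] at h3
  have h4 := szl_pos hP hg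
  linarith

/-- two sums of logarithms with the same large gaps agree on the directions with a limit -/
theorem lS_congr {B : Set (W R m).Fr} {S T : Finset (Σ k, Fin (R.n k + 1))}
    (h : ∀ g, Big R m B g → (g ∈ S ↔ g ∈ T)) :
    (∀ f ∈ B, (W R m).lS S ((W R m).vec (C := R.Cm) (.u f)) =
      (W R m).lS T ((W R m).vec (C := R.Cm) (.u f))) ∧
    (∀ f ∈ B, (W R m).lS S ((W R m).vec (C := R.Cm) (.ph f)) =
      (W R m).lS T ((W R m).vec (C := R.Cm) (.ph f))) ∧
    ∀ l, (W R m).lS S ((W R m).vec (C := R.Cm) (.al l)) =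
      (W R m).lS T ((W R m).vec (C := R.Cm) (.al l)) := by
  refine ⟨fun f hf => ?_, fun f hf => ?_, fun l => ?_⟩
  · rw [Reg.lS_vec_u, Reg.lS_vec_u, if_congr (h _ (big_last _)) rfl rfl,
      if_congr (h _ (big_free hf)) rfl rfl]
  · rw [Reg.lS_vec_ph, Reg.lS_vec_ph, if_congr (h _ (big_last _)) rfl rfl,
      if_congr (h _ (big_free hf)) rfl rfl]
  · rw [Reg.lS_vec_al, Reg.lS_vec_al, if_congr (h _ (big_last _)) rfl rfl]

/-- legN depends only on the values of lx on the directions of B and the base angles -/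
theorem legN_congr {B : Set (W R m).Fr} {ξ : Fin 6 → ℝ} {y α : Fin 3 → ℝ} {k : Fin 3} {s : ℝ}
    {lx lx' : Co R m → ℂ}
    (h1 : ∀ f ∈ B, lx ((W R m).vec (.u f)) = lx' ((W R m).vec (.u f)))
    (h2 : ∀ f ∈ B, lx ((W R m).vec (.ph f)) = lx' ((W R m).vec (.ph f)))
    (h3 : ∀ l, lx ((W R m).vec (.al l)) = lx' ((W R m).vec (.al l)))
    {d : BDir R m} (hd : d.ok R m B) :
    legN κ R m ξ y α k s lx d = legN κ R m ξ y α k s lx' d := by
  cases d with
  | u f => simp only [legN]; rw [h1 f hd]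
  | ph f => simp only [legN]; rw [h2 f hd]
  | al l => simp only [legN]; rw [h3 l]
  | eul l => simp only [legN]

theorem bef_mono {k : Fin 3} {i j : Fin (R.n k)} (h : i ≤ j) :
    wreg.bef R.n k i ⊆ wreg.bef R.n k j := by
  intro g hg
  obtain ⟨l, h1, rfl⟩ := wreg.mem_bef.1 hg
  exact wreg.mem_bef.2 ⟨l, h1.trans (Fin.castSucc_le_castSucc_iff.2 h), rfl⟩

/-- **(F2), two marks of a neck at the same limit depth** -/
theorem same_neck {S : L → Bool} {B : Set (W R m).Fr} {p : Co R m} (hG : Gen R m S B p)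
    {i j : L} {k : Fin 3} (hi : R.pl i = Sum.inl k) (hj : R.pl j = Sum.inl k)
    (e : depl R m B p hi = depl R m B p hj) (ξ : Fin 6 → ℝ) {d : BDir R m} (hd : d.ok R m B) :
    legN κ R m ξ p.2.2.1 p.2.2.2.1 k (depl R m B p hi) (wreg.LX R.Cm R.n m k (rkF R hi)) d =
      legN κ R m ξ p.2.2.1 p.2.2.2.1 k (depl R m B p hj) (wreg.LX R.Cm R.n m k (rkF R hj)) d := by
  have key : ∀ g, Big R m B g →
      (g ∈ wreg.bef R.n k (rkF R hi) ↔ g ∈ wreg.bef R.n k (rkF R hj)) := by
    intro g hg
    rcases le_total (rkF R hi) (rkF R hj) with h | h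
    · exact big_iff_of_sum hG.1 (bef_mono h) e hg
    · exact (big_iff_of_sum hG.1 (bef_mono h) e.symm hg).symm
  rw [e]
  obtain ⟨h1, h2, h3⟩ := lS_congr key
  exact legN_congr h1 h2 h3 hd

/-- **(F2), a mark of a neck at limit depth 0** -/
theorem same_zero {S : L → Bool} {B : Set (W R m).Fr} {p : Co R m} (hG : Gen R m S B p)
    {j : L} {k : Fin 3} (hj : R.pl j = Sum.inl k) (e : depl R m B p hj = 0)
    (ξ : Fin 6 → ℝ) {d : BDir R m} (hd : d.ok R m B) :
    legN κ R m ξ p.2.2.1 p.2.2.2.1 k (depl R m B p hj) (wreg.LX R.Cm R.n m k (rkF R hj)) d =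
      legC κ R m ξ p.2.2.1 p.2.2.2.1 false d := by
  have key : ∀ g, Big R m B g →
      (g ∈ (∅ : Finset (Σ k, Fin (R.n k + 1))) ↔ g ∈ wreg.bef R.n k (rkF R hj)) := by
    intro g hg
    refine big_iff_of_sum hG.1 (Finset.empty_subset _) ?_ hg
    rw [Finset.sum_empty]
    exact e.symm
  rw [e]
  obtain ⟨h1, h2, h3⟩ := lS_congr key
  rw [← legN_congr (lx := (W R m).lS ∅) (lx' := wreg.LX R.Cm R.n m k (rkF R hj)) h1 h2 h3 hd]
  cases d with
  | u f => simp [legN, legC, Reg.lS]
  | ph f => simp [legN, legC, Reg.lS]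
  | al l =>
    simp only [legN, legC, Reg.lS, Finset.sum_empty, Bool.false_eq_true, if_false,
      zero_apply, Complex.zero_im]
    by_cases hl : l = k
    · rw [if_pos hl, if_pos hl]
      ring
    · rw [if_neg hl, if_neg hl]
      ring
  | eul l => simp [legN, legC]

/-- **(F2), a mark of a neck at limit depth y** -/
theorem same_full {S : L → Bool} {B : Set (W R m).Fr} {p : Co R m} (hG : Gen R m S B p)
    {j : L} {k : Fin 3} (hj : R.pl j = Sum.inl k) (e : depl R m B p hj = p.2.2.1 k)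
    (hy : 0 < p.2.2.1 k) (ξ : Fin 6 → ℝ) {d : BDir R m} (hd : d.ok R m B) :
    legN κ R m ξ p.2.2.1 p.2.2.2.1 k (depl R m B p hj) (wreg.LX R.Cm R.n m k (rkF R hj)) d =
      legC κ R m ξ p.2.2.1 p.2.2.2.1 true d := by
  have key : ∀ g, Big R m B g →
      (g ∈ wreg.bef R.n k (rkF R hj) ↔ g ∈ (W R m).neck k) := by
    intro g hg
    refine big_iff_of_sum hG.1 (wreg.bef_subset m k _) ?_ hg
    rw [sum_neck]
    exact e
  rw [e]
  obtain ⟨h1, h2, h3⟩ := lS_congr key
  rw [legN_congr (lx := wreg.LX R.Cm R.n m k (rkF R hj)) (lx' := (W R m).lS ((W R m).neck k))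
    h1 h2 h3 hd]
  have hy' : p.2.2.1 k ≠ 0 := hy.ne'
  have hmem : ∀ f : (W R m).Fr, (f.1 ∈ (W R m).neck k ↔
      (W R m).last ((W R m).nk f.1) ∈ (W R m).neck k) := by
    intro f
    rw [Reg.mem_neck, Reg.mem_neck, Reg.nk_last]
  cases d with
  | u f =>
    have h := ((W R m).lS_vec_rigid (C := R.Cm) _ f (hmem f)).1
    simp only [legN, legC]
    rw [h]
    simp
  | ph f =>
    have h := ((W R m).lS_vec_rigid (C := R.Cm) _ f (hmem f)).2
    simp only [legN, legC]
    rw [h]
    simp
  | al l =>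
    have h : (W R m).lS ((W R m).neck k) ((W R m).vec (C := R.Cm) (.al l)) =
        (if l = k then 1 else 0) * Complex.I := by
      rw [Reg.lS_vec_al]
      refine congrArg (· * Complex.I) (if_congr ?_ rfl rfl)
      rw [Reg.mem_neck, Reg.nk_last]
    have h5 : 2 * p.2.2.1 k / p.2.2.1 k = 2 := by field_simp
    simp only [legN, legC, if_true]
    rw [h, h5]
    by_cases hl : l = k
    · rw [if_pos hl, if_pos hl, if_pos hl]
      simp only [one_mul, Complex.I_im]
      ring
    · rw [if_neg hl, if_neg hl, if_neg hl]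
      simp only [zero_mul, Complex.zero_im]
      ring
  | eul l =>
    have h5 : 2 * p.2.2.1 k / p.2.2.1 k = 2 := by field_simp
    simp only [legN, legC]
    rw [h5]
    simp
    ring

end

end Vale.Agent.P273.H149
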