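import Vale.Agent.P273.H149.Same
import Vale.Agent.P273.H469.SepDef

/-!
# P273, crew ASY0, (F2): two marks in the same component have the same limit legs
-/

noncomputable section

namespace Vale.Agent.P273.H149

open Set Filter H681 H95 H732 H562
open Vale.Agent.P273.H469.Sep (Cmp cmp lgL cmp_neck cmp_core lgL_neck lgL_core)

section

variable {κ : Fin 3 → Fin 3 → ℝ} {R : H95.Region} {m : ∀ k, Fin (R.n k + 1)}
  {S : L → Bool} {B : Set (W R m).Fr} {p : Co R m}

/-- a mark in the component of the core b has the limit leg of the core b -/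
theorem lgL_of_core (hG : Gen R m S B p) (hy : ∀ k, 0 < p.2.2.1 k) {j : L} {b : Bool}
    (h : cmp R m B p j = .core b) (ξ : Fin 6 → ℝ) {d : BDir R m} (hd : d.ok R m B) :
    lgL κ R m B p ξ j d = legC κ R m ξ p.2.2.1 p.2.2.2.1 b d := by
  classical
  rcases hj : R.pl j with k | b'
  · rw [lgL_neck hj]
    rw [cmp_neck hj] at h
    by_cases h0 : depl R m B p hj = 0
    · rw [if_pos h0] at h
      have hb : b = false := by cases h; rfl
      rw [hb]
      exact same_zero hG hj h0 ξ hd
    · rw [if_neg h0] at h
      by_cases h1 : depl R m B p hj = p.2.2.1 k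
      · rw [if_pos h1] at h
        have hb : b = true := by cases h; rfl
        rw [hb]
        exact same_full hG hj h1 (hy k) ξ hd
      · rw [if_neg h1] at h
        cases h
  · rw [lgL_core hj]
    rw [cmp_core hj] at h
    have hb : b' = b := by cases h; rfl
    rw [hb]

/-- a mark in a component inside a neck is a mark of this neck at this depth -/
theorem neck_of_cmp {j : L} {k : Fin 3} {s : ℝ} (h : cmp R m B p j = .nk k s) :
    ∃ hj : R.pl j = Sum.inl k, depl R m B p hj = s := by
  classical
  have hc : (∃ k', R.pl j = Sum.inl k') ∨ ∃ b', R.pl j = Sum.inr b' := by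
    rcases R.pl j with k' | b'
    · exact Or.inl ⟨k', rfl⟩
    · exact Or.inr ⟨b', rfl⟩
  rcases hc with ⟨k', hj⟩ | ⟨b', hj⟩
  · rw [cmp_neck hj] at h
    by_cases h0 : depl R m B p hj = 0
    · rw [if_pos h0] at h
      cases h
    · rw [if_neg h0] at h
      by_cases h1 : depl R m B p hj = p.2.2.1 k'
      · rw [if_pos h1] at h
        cases h
      · rw [if_neg h1] at h
        have hk : k' = k := by injection h
        subst hk
        have hs : depl R m B p hj = s := by injection h
        exact ⟨hj, hs⟩
  · rw [cmp_core hj] at h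
    cases h

/-- **(F2)** marks of the same component have the same limit legs -/
theorem lgL_eq (hG : Gen R m S B p) (hy : ∀ k, 0 < p.2.2.1 k) {i j : L}
    (h : cmp R m B p i = cmp R m B p j) (ξ : Fin 6 → ℝ) {d : BDir R m} (hd : d.ok R m B) :
    lgL κ R m B p ξ i d = lgL κ R m B p ξ j d := by
  rcases hj : cmp R m B p j with b | ⟨k, s⟩
  · rw [lgL_of_core hG hy hj ξ hd, lgL_of_core hG hy (h.trans hj) ξ hd]
  · obtain ⟨h1, h2⟩ := neck_of_cmp hj
    obtain ⟨h3, h4⟩ := neck_of_cmp (h.trans hj)
    rw [lgL_neck h1, lgL_neck h3]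
    exact same_neck hG h3 h1 (h4.trans h2.symm) ξ hd

end

end Vale.Agent.P273.H149

end
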